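import Vale.Agent.P181.SZ.Defs
import Vale.Agent.P181.H411.Seam4
import Vale.Agent.P181.H503.CaseII
import Vale.Agent.P181.H539.UpStmt

set_option autoImplicit false

/-!
# P181, SZ: the number of highest weight polynomials in `J` columns
-/

namespace Vale.Agent.P181.SZ

open MvPolynomial
open Vale.Agent.P181.T4 (HW ex low ex_of_lt ex_anti low_anti polyAct hwSpace_le_HW HW_le_hwSpace
  finrank_hwSpace_le)
open Vale.Agent.P181.H280 (plethMult hwSpace)
open Vale.Agent.P181.H463 (gt strips nxt)
open Vale.Agent.P181.H503 (gt_congr ex_low)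

theorem hw_cut {m J R : ℕ} (hR : R ≤ m) (mu : Fin m → ℕ) (hmu : Antitone mu) (W : ℕ)
    (hW : ∀ i, mu i ≤ W) :
    Module.finrank ℂ (HW m (Fin J) mu) ≤ (W + 1) ^ (R * J) * gt (m - R) J (low R mu) := by
  obtain ⟨k, rfl⟩ := Nat.exists_eq_add_of_le hR
  have h0 : ∀ (n : ℕ) (nu : Fin n → ℕ), FiniteDimensional ℂ (hwSpace nu (polyAct n (Fin J))) :=
    fun n nu => Submodule.finiteDimensional_of_le (hwSpace_le_HW nu)
  have h1 : HW (R + k) (Fin J) mu ≤ hwSpace mu (polyAct (R + k) (Fin J)) :=
    fun f hf g hg => HW_le_hwSpace hf hg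
  have := h0 (R + k) mu
  have h2 : Module.finrank ℂ (HW (R + k) (Fin J) mu) ≤
      Module.finrank ℂ (hwSpace mu (polyAct (R + k) (Fin J))) := Submodule.finrank_mono h1
  have h3 := finrank_hwSpace_le R k (Fin J) mu
  have h4 : ∏ r : Fin R, (mu (Fin.castAdd k r) + 1) ^ Fintype.card (Fin J) ≤
      (W + 1) ^ (R * J) := by
    calc ∏ r : Fin R, (mu (Fin.castAdd k r) + 1) ^ Fintype.card (Fin J)
        ≤ ∏ _r : Fin R, (W + 1) ^ J := by
          apply Finset.prod_le_prod'
          intro r _
          rw [Fintype.card_fin]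
          exact Nat.pow_le_pow_left (Nat.add_le_add_right (hW _) 1) J
      _ = (W + 1) ^ (R * J) := by
          rw [Finset.prod_const, Finset.card_univ, Fintype.card_fin, ← pow_mul, mul_comm]
  set bot : Fin k → ℕ := fun i => mu (Fin.natAdd R i) with hbot
  have hanti : Antitone bot := by
    intro i j hij
    have h7 : (Fin.natAdd R i : Fin (R + k)) ≤ Fin.natAdd R j := by
      rw [Fin.le_def, Fin.val_natAdd, Fin.val_natAdd]
      have h8 := Fin.le_def.1 hij
      omega
    exact hmu h7
  have h50 : Module.finrank ℂ (hwSpace bot (polyAct k (Fin J))) ≤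
      Module.finrank ℂ (HW k (Fin J) bot) := Submodule.finrank_mono (hwSpace_le_HW bot)
  have h5 : Module.finrank ℂ (hwSpace bot (polyAct k (Fin J))) ≤ gt k J bot :=
    h50.trans (H539.up_stmt k J bot hanti)
  have h6 : gt k J bot = gt (R + k - R) J (low R mu) := by
    apply gt_congr (by omega)
    intro i
    rw [ex_low]
    unfold ex
    by_cases h : i < k
    · rw [dif_pos h, dif_pos (by omega)]
      rfl
    · rw [dif_neg h, dif_neg (by omega)]
  rw [← h6]
  exact h2.trans (h3.trans (Nat.mul_le_mul h4 h5))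

theorem gt_eq_zero {n : ℕ} : ∀ (N p : ℕ) (lam : Fin n → ℕ), p ≤ n → N < p →
    (∀ i : Fin n, (i : ℕ) < p → 0 < lam i) → gt n N lam = 0 := by
  intro N
  induction N with
  | zero =>
    intro p lam hpn hp hpos
    have h0 : 0 < n := by omega
    unfold gt
    rw [if_neg]
    intro h
    have := hpos ⟨0, h0⟩ (by simpa using hp)
    rw [h] at this
    simp at this
  | succ N ih =>
    intro p lam hpn hp hpos
    unfold gt
    apply Finset.sum_eq_zero
    intro mu hmu
    unfold strips at hmu
    rw [Fintype.mem_piFinset] at hmu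
    refine ih (p - 1) mu (by omega) (by omega) ?_
    intro i hi
    have h1 := hmu i
    rw [Finset.mem_Icc] at h1
    unfold nxt at h1
    rw [dif_pos (by omega)] at h1
    have h2 := hpos ⟨(i : ℕ) + 1, by omega⟩ (by simp; omega)
    omega

theorem hw_zero {m J : ℕ} (hJ : J < m) (mu : Fin m → ℕ) (hmu : Antitone mu) (h : ∀ i, 0 < mu i) :
    Module.finrank ℂ (HW m (Fin J) mu) = 0 := by
  have h1 := H539.up_stmt m J mu hmu
  rw [gt_eq_zero J m mu le_rfl hJ (fun i _ => h i)] at h1
  omega

end Vale.Agent.P181.SZ
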