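import Vale.Agent.P181.SZ.FinA
import Vale.Agent.P181.SZ.Cut

set_option autoImplicit false

/-!
# P181, SZ: the finite assembly
-/

namespace Vale.Agent.P181.SZ

open MvPolynomial
open Vale.Agent.P181.T4 (HW ex low ex_of_lt ex_anti low_anti)
open Vale.Agent.P181.H280 (plethMult hwSpace)
open Vale.Agent.P181.H463 (gt)
open Vale.Agent.P181.H503 (gt_congr ex_low)

lemma mem_PT {w : ℕ} {k : Multiset ℕ} : k ∈ PT w ↔ k.sum = w ∧ ∀ x ∈ k, 2 ≤ x := by
  classical
  unfold PT
  rw [Finset.mem_filter, Finset.mem_image]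
  constructor
  · rintro ⟨⟨p, _, rfl⟩, h⟩
    exact ⟨p.parts_sum, h⟩
  · rintro ⟨h1, h2⟩
    refine ⟨⟨⟨k, fun {i} hi => ?_, h1⟩, Finset.mem_univ _, rfl⟩, h2⟩
    have := h2 i hi
    omega

lemma sum_tl {m : ℕ} (lam : Fin (m + 1) → ℕ) :
    ∑ i : Fin (m + 1), (if 1 ≤ (i : ℕ) then lam i else 0) = ∑ i, tl lam i := by
  rw [Fin.sum_univ_succ]
  simp [tl]

lemma ex_tl {m : ℕ} (lam : Fin (m + 1) → ℕ) (i : ℕ) : ex (tl lam) i = ex lam (i + 1) := by
  unfold ex
  by_cases h : i < m
  · rw [dif_pos h, dif_pos (by omega)]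
    rfl
  · rw [dif_neg h, dif_neg (by omega)]

lemma tl_anti {m : ℕ} {lam : Fin (m + 1) → ℕ} (h : Antitone lam) : Antitone (tl lam) := by
  intro i j hij
  exact h (Fin.succ_le_succ_iff.2 hij)

lemma mks_sum (x t r : ℕ) : (mks x t r).sum = r * mkc x t := by
  unfold mks mkc
  induction t with
  | zero => simp
  | succ t ih =>
    rw [Finset.sum_range_succ, Finset.sum_range_succ, Multiset.sum_add, ih,
      Multiset.sum_replicate, smul_eq_mul]
    ring

lemma mem_mks {x t r y : ℕ} (h : y ∈ mks x t r) : 2 * x + 2 ≤ y ∧ y ≤ 2 * x + 2 * t := by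
  unfold mks at h
  rw [Multiset.mem_sum] at h
  obtain ⟨q, hq, h⟩ := h
  rw [Finset.mem_range] at hq
  have := Multiset.eq_of_mem_replicate h
  omega

lemma card_mks (x t r : ℕ) : Multiset.card (mks x t r) = r * t := by
  unfold mks
  induction t with
  | zero => simp
  | succ t ih =>
    rw [Finset.sum_range_succ, Multiset.card_add, ih, Multiset.card_replicate]
    ring

lemma le_mkc {x t : ℕ} (ht : 2 ≤ t) : 2 * x + 2 * t ≤ mkc x t := by
  unfold mkc
  obtain ⟨s, rfl⟩ := Nat.exists_eq_add_of_le ht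
  induction s with
  | zero =>
    simp [Finset.sum_range_succ]
  | succ s ih =>
    rw [show 2 + (s + 1) = 2 + s + 1 by ring, Finset.sum_range_succ]
    have := ih (by omega)
    omega

lemma card_le_row {m r : ℕ} (hr : r < m) :
    (Finset.univ.filter (fun i : Fin m => (i : ℕ) ≤ r)).card = r + 1 := by
  have h1 : (Finset.univ.filter (fun i : Fin m => (i : ℕ) ≤ r)) =
      (Finset.univ : Finset (Fin (r + 1))).map
        ⟨Fin.castLE (by omega : r + 1 ≤ m), Fin.castLE_injective _⟩ := by
    ext i
    simp only [Finset.mem_filter, Finset.mem_univ, true_and, Finset.mem_map,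
      Function.Embedding.coeFn_mk]
    constructor
    · intro h
      exact ⟨⟨i, by omega⟩, rfl⟩
    · rintro ⟨j, rfl⟩
      have := j.2
      rw [Fin.val_castLE]
      omega
  rw [h1, Finset.card_map, Finset.card_univ, Fintype.card_fin]

lemma sum_union_le' {α : Type*} [DecidableEq α] (s t : Finset α) (f : α → ℕ) :
    ∑ k ∈ s ∪ t, f k ≤ ∑ k ∈ s, f k + ∑ k ∈ t, f k := by
  rw [← Finset.sum_union_inter]
  exact Nat.le_add_right _ _

/-- the cut in the form of the assembly -/
lemma few_bound {m J R w : ℕ} (hR : 1 ≤ R) (hRm : R ≤ m + 1) {lam : Fin (m + 1) → ℕ}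
    (hlam : Antitone lam) (hw : ∑ i, tl lam i = w) :
    Module.finrank ℂ (HW m (Fin J) (tl lam)) ≤
      (w + 1) ^ (R * J) * gt (m + 1 - R) J (low R lam) := by
  have h1 := hw_cut (J := J) (show R - 1 ≤ m by omega) (tl lam) (tl_anti hlam) w (fun i => by
    rw [← hw]
    exact Finset.single_le_sum (f := tl lam) (fun _ _ => Nat.zero_le _) (Finset.mem_univ i))
  have h2 : gt (m - (R - 1)) J (low (R - 1) (tl lam)) = gt (m + 1 - R) J (low R lam) := by
    apply gt_congr (by omega)
    intro i
    rw [ex_low, ex_low, ex_tl]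
    congr 1
    omega
  rw [h2] at h1
  refine h1.trans (Nat.mul_le_mul_right _ (Nat.pow_le_pow_right (by omega) ?_))
  exact Nat.mul_le_mul_right _ (Nat.sub_le _ _)

open scoped Classical in
/-- the marked types -/
theorem marked (hU : UpperS) (hM : MarkS) {m r x t a0 b0 w a b : ℕ} {mu : Fin m → ℕ}
    {nu : Fin (m + 1) → ℕ} (hr : r < m) (ht : 2 ≤ t) (ha0 : a0 ≤ 2 * x + 1)
    (hc : mkc x t ≤ a) (hw : ∑ i, mu i = w)
    (hnu : ∀ i : Fin m, mu i = tl nu i + if (i : ℕ) ≤ r then mkc x t else 0)
    (hs : ∀ y, y ≤ 2 * x + 2 * t → ∀ s, w ≤ (r + 1) * mkc x t + a0 * s →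
      y + a + 2 ≤ mkc x t + s) (hb : 3 * (b0 + 1 + r * t) ≤ b) :
    plethMult b0 a0 (m + 1) nu ≤
      ∑ k ∈ (PT w).filter (fun k => (∀ x ∈ k, x ≤ a) ∧ 3 * Multiset.card k ≤ b ∧ LBt a k),
        nn m mu k := by
  have hmk := le_mkc (x := x) ht
  refine (hU b0 a0 m nu).trans ?_
  have hsum : w = ∑ i, tl nu i + (r + 1) * mkc x t := by
    rw [← hw, Finset.sum_congr rfl fun i _ => hnu i, Finset.sum_add_distrib]
    congr 1
    rw [← Finset.sum_filter, Finset.sum_const, smul_eq_mul]
    congr 1
    exact card_le_row hr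
  calc ∑ k ∈ (PT (∑ i, tl nu i)).filter (fun k => (∀ x ∈ k, x ≤ a0) ∧ ¬ LBt b0 k),
        nn m (tl nu) k
      ≤ ∑ k ∈ (PT (∑ i, tl nu i)).filter (fun k => (∀ x ∈ k, x ≤ a0) ∧ ¬ LBt b0 k),
        nn m mu (mkc x t ::ₘ (mks x t r + k)) := by
        apply Finset.sum_le_sum
        intro k hk
        rw [Finset.mem_filter] at hk
        exact hM m r x t (tl nu) mu k hr ht (fun y hy => (hk.2.1 y hy).trans ha0) hnu
    _ = ∑ k ∈ ((PT (∑ i, tl nu i)).filter (fun k => (∀ x ∈ k, x ≤ a0) ∧ ¬ LBt b0 k)).image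
        (fun k => mkc x t ::ₘ (mks x t r + k)), nn m mu k := by
        rw [Finset.sum_image]
        intro k _ k' _ h
        have h1 : mkc x t ::ₘ (mks x t r + k) = mkc x t ::ₘ (mks x t r + k') := h
        rw [Multiset.cons_inj_right] at h1
        exact add_left_cancel h1
    _ ≤ _ := by
        apply Finset.sum_le_sum_of_subset
        intro k' hk'
        rw [Finset.mem_image] at hk'
        obtain ⟨k, hk, rfl⟩ := hk'
        rw [Finset.mem_filter, mem_PT] at hk
        obtain ⟨⟨h1, h2⟩, h3, h4⟩ := hk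
        have h5 : Multiset.card k ≤ b0 := by
          by_contra h
          exact h4 (Or.inl (by omega))
        have h6 : k.sum ≤ a0 * Multiset.card k := by
          have := Multiset.sum_le_card_nsmul k a0 h3
          rwa [smul_eq_mul, mul_comm] at this
        have h7 : ∀ y ∈ mks x t r + k, y ≤ 2 * x + 2 * t ∧ 2 ≤ y := by
          intro y hy
          rw [Multiset.mem_add] at hy
          rcases hy with hy | hy
          · have := mem_mks hy
            omega
          · have := h3 y hy
            have := h2 y hy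
            omega
        have h8 : Multiset.card (mkc x t ::ₘ (mks x t r + k)) = 1 + r * t + Multiset.card k := by
          rw [Multiset.card_cons, Multiset.card_add, card_mks]
          ring
        have h9 : ∀ y, y ≤ 2 * x + 2 * t → y + a + 2 ≤ mkc x t + Multiset.card k := by
          intro y hy
          apply hs y hy
          omega
        rw [Finset.mem_filter, mem_PT]
        refine ⟨⟨?_, ?_⟩, ?_, ?_, ?_⟩
        · rw [Multiset.sum_cons, Multiset.sum_add, mks_sum, h1, hsum]
          ring
        · intro y hy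
          rw [Multiset.mem_cons] at hy
          rcases hy with rfl | hy
          · omega
          · exact (h7 y hy).2
        · intro y hy
          rw [Multiset.mem_cons] at hy
          rcases hy with rfl | hy
          · exact hc
          · have := (h7 y hy).1
            omega
        · rw [h8]
          omega
        · refine Or.inr ⟨mkc x t, Multiset.mem_cons_self _ _, ?_, ?_⟩
          · rw [h8]
            have := h9 0 (Nat.zero_le _)
            omega
          · intro y hy
            rw [Multiset.erase_cons_head] at hy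
            rw [h8]
            have := h9 y (h7 y hy).1
            omega

/-- **The finite assembly.** -/
theorem fin_asm (hU : UpperS) (hL : LowerS) (hSp : ∀ (m : ℕ) (mu : Fin m → ℕ), SplitS (nn m mu))
    (hF : FewS) (hM : MarkS) (hFl : FlowS) (hN : NumS) : FinA := by
  classical
  intro a b n R X Z K w lam hlam hsum hpos hR3 hRn hw hZ1 hZ2 hK hKX hRX hXZ hl2 hXa hlR htail
    hlog hwX hKa hab h8
  obtain ⟨m, rfl⟩ : ∃ m, n = m + 1 := ⟨n - 1, by omega⟩
  have hw' : ∑ i, tl lam i = w := by rw [hw, sum_tl]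
  obtain ⟨S, hS⟩ : ∃ S, S = (Z + 1) * X := ⟨_, rfl⟩
  obtain ⟨Y, hY⟩ : ∃ Y, Y = 2 * K * S := ⟨_, rfl⟩
  obtain ⟨J, hJ⟩ : ∃ J, J = 3 * Y + 3 := ⟨_, rfl⟩
  have hX1 : 1 ≤ X := by omega
  have hXpow : X ≤ X ^ 20 := Nat.le_self_pow (by norm_num) X
  have hZX : X ≤ Z := hXpow.trans hXZ
  have hS1 : Z + 1 ≤ S := by
    rw [hS]
    exact Nat.le_mul_of_pos_right _ (by omega)
  have hKS : S ≤ K * S := Nat.le_mul_of_pos_left _ (by omega)
  have hKa' : 100 * (K * S) ≤ a := by
    rw [hS]
    calc 100 * (K * ((Z + 1) * X)) = 100 * K * ((Z + 1) * X) := by ring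
      _ ≤ a := hKa
  have hY' : Y = 2 * (K * S) := by rw [hY]; ring
  -- the sums
  set P := PT w with hP
  set N := nn m (tl lam) with hNdef
  set T := P.filter (fun k => (∀ x ∈ k, x ≤ a) ∧ 3 * Multiset.card k ≤ b ∧ LBt a k) with hT
  set A0 := P.filter (fun k => (∀ x ∈ k, x ≤ a) ∧ ¬ LBt a k) with hA0
  have hlow : ∑ k ∈ A0, N k + ∑ k ∈ T, N k ≤ plethMult b a (m + 1) lam := by
    have h1 := hL a b m lam hsum
    rw [hw'] at h1
    refine le_trans ?_ h1
    rw [← Finset.sum_union]
    · apply Finset.sum_le_sum_of_subset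
      intro k hk
      rw [Finset.mem_union, hA0, hT, Finset.mem_filter, Finset.mem_filter] at hk
      rw [Finset.mem_filter]
      rcases hk with ⟨h2, h3, h4⟩ | ⟨h2, h3, h4, _⟩
      · refine ⟨h2, h3, ?_⟩
        have : Multiset.card k ≤ a := by
          by_contra h
          exact h4 (Or.inl (by omega))
        omega
      · exact ⟨h2, h3, h4⟩
    · rw [Finset.disjoint_left]
      intro k hk1 hk2
      rw [hA0, Finset.mem_filter] at hk1
      rw [hT, Finset.mem_filter] at hk2
      exact hk1.2.2 hk2.2.2.2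
  -- the flow
  have hflow : 2 * ∑ k ∈ P.filter (SrcF a J S), N k ≤ ∑ k ∈ T, N k := by
    have h1 := hFl N (hSp m (tl lam)) a J S K X w hK (by omega) (by omega) (by
      rw [hS, mul_pow]
      exact Nat.mul_le_mul_right _ hZ2.le) hwX (by
      have : 6 * K * S = 6 * (K * S) := by ring
      omega)
    refine h1.trans (Finset.sum_le_sum_of_subset ?_)
    intro k hk
    rw [Finset.mem_filter] at hk
    obtain ⟨h2, h3, h4, ⟨x, hx, h5, h6⟩, h7⟩ := hk
    rw [← hY] at h5 h6
    rw [hT, Finset.mem_filter]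
    refine ⟨h2, h4, ?_, Or.inr ⟨x, hx, by omega, fun y hy => ?_⟩⟩
    · rw [mem_PT] at h2
      have h9 := Multiset.filter_add_not (· < S) k
      have h10 : Multiset.card k = Multiset.card (k.filter (· < S)) +
          Multiset.card (k.filter (fun y => ¬ y < S)) := by
        conv_lhs => rw [← h9]
        rw [Multiset.card_add]
      have h11 : Multiset.card (k.filter (fun y => ¬ y < S)) * S ≤ w := by
        have h12 := Multiset.card_nsmul_le_sum (s := k.filter (fun y => ¬ y < S)) (a := S)
          (fun y hy => by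
            rw [Multiset.mem_filter] at hy
            omega)
        rw [smul_eq_mul] at h12
        have h13 : (k.filter (fun y => ¬ y < S)).sum ≤ k.sum := by
          conv_rhs => rw [← h9]
          rw [Multiset.sum_add]
          omega
        omega
      have h14 : Multiset.card (k.filter (fun y => ¬ y < S)) ≤ Z + 1 := by
        by_contra h
        have h15 : (Z + 2) * S ≤ w := by
          refine le_trans (Nat.mul_le_mul_right _ ?_) h11
          omega
        have h16 : (Z + 1) * (Z + 1) ≤ (Z + 2) * S := Nat.mul_le_mul (by omega) hS1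
        have h17 : (Z + 1) ^ 2 = (Z + 1) * (Z + 1) := sq _
        omega
      omega
    · have := h6 y hy
      omega
  -- few letters
  have hfew : 2 * ∑ k ∈ P.filter (fun k => Multiset.card k < J), N k ≤ ∑ k ∈ T, N k := by
    by_cases hnJ : m + 1 ≤ J
    · have hJX : J ≤ Z * X ^ 2 := by
        have e1 : Z * X ^ 2 = Z * X * X := by ring
        have e2 : Z * X * (16 * K + 16) ≤ Z * X * X := Nat.mul_le_mul_left _ hKX
        have e3 : Z * X * (16 * K + 16) = 16 * (K * (Z * X)) + 16 * (Z * X) := by ring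
        have e4 : K * S = K * (Z * X) + K * X := by rw [hS]; ring
        have e5 : K * X ≤ K * (Z * X) := Nat.mul_le_mul_left _ (Nat.le_mul_of_pos_left _ (by omega))
        have e6 : 1 ≤ Z * X := Nat.mul_pos (by omega) (by omega)
        omega
      have hZ3 : w ≤ 2 * Z ^ 2 := by
        have e1 : (Z + 1) ^ 2 = Z ^ 2 + 2 * Z + 1 := by ring
        have e2 : 2 * Z ≤ Z * Z := Nat.mul_le_mul_right _ (by omega)
        have e3 : Z ^ 2 = Z * Z := sq _
        omega
      obtain ⟨r, x, t, a0, b0, nu, h1, ht, ha0, _, hc, hnu, hs, hb0, hbig⟩ :=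
        hN (m + 1) J R X Z w a lam hlam hR3 hRn hnJ hw hZ1 hZ3 hJX hRX hXZ hl2 hXa (by omega)
          hlR htail hlog
      have hmark := marked hU hM (mu := tl lam) (nu := nu) (r := r) (x := x) (t := t) (a0 := a0)
        (b0 := b0) (w := w) (a := a) (b := b) (by omega) ht ha0 hc hw' (fun i => by
          have h2 := hnu i.succ (by simp)
          have h3 : ((i.succ : Fin (m + 1)) : ℕ) ≤ r + 1 ↔ (i : ℕ) ≤ r := by
            rw [Fin.val_succ]
            omega
          simp only [h3] at h2
          exact h2.symm) hs (by omega)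
      refine le_trans ?_ hmark
      refine le_trans (Nat.mul_le_mul_left 2 ?_) hbig
      refine le_trans ?_ (few_bound (by omega) (by omega) hlam hw')
      refine le_trans ?_ (hF m w J (tl lam) hw')
      apply Finset.sum_le_sum_of_subset
      intro k hk
      rw [Finset.mem_filter] at hk ⊢
      exact ⟨hk.1, by omega⟩
    · have h1 := hF m w (J - 1) (tl lam) hw'
      rw [hw_zero (by omega) (tl lam) (tl_anti hlam) (fun i => hpos _)] at h1
      have h2 : ∑ k ∈ P.filter (fun k => Multiset.card k < J), N k ≤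
          ∑ k ∈ P.filter (fun k => Multiset.card k ≤ J - 1), N k := by
        apply Finset.sum_le_sum_of_subset
        intro k hk
        rw [Finset.mem_filter] at hk ⊢
        exact ⟨hk.1, by omega⟩
      have h3 : ∑ k ∈ P.filter (fun k => Multiset.card k < J), N k = 0 := by
        have := h2.trans h1
        omega
      rw [h3]
      simp
  -- the end
  have hup := hU a b m lam
  rw [hw'] at hup
  have hcover : ∑ k ∈ P.filter (fun k => (∀ x ∈ k, x ≤ b) ∧ ¬ LBt a k), N k ≤
      ∑ k ∈ A0, N k + (∑ k ∈ P.filter (SrcF a J S), N k +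
        ∑ k ∈ P.filter (fun k => Multiset.card k < J), N k) := by
    have h1 : P.filter (fun k => (∀ x ∈ k, x ≤ b) ∧ ¬ LBt a k) ⊆
        A0 ∪ (P.filter (SrcF a J S) ∪ P.filter (fun k => Multiset.card k < J)) := by
      intro k hk
      rw [Finset.mem_filter] at hk
      obtain ⟨h2, _, h3⟩ := hk
      rw [Finset.mem_union, Finset.mem_union, hA0, Finset.mem_filter, Finset.mem_filter,
        Finset.mem_filter]
      by_cases h4 : ∀ x ∈ k, x ≤ a
      · exact Or.inl ⟨h2, h4, h3⟩
      · push Not at h4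
        by_cases h5 : Multiset.card k < J
        · exact Or.inr (Or.inr ⟨h2, h5⟩)
        · refine Or.inr (Or.inl ⟨h2, by omega, h4, ?_⟩)
          refine (Multiset.card_le_card (Multiset.filter_le _ _)).trans ?_
          by_contra h
          exact h3 (Or.inl (by omega))
    refine (Finset.sum_le_sum_of_subset h1).trans ?_
    exact (sum_union_le' _ _ _).trans (Nat.add_le_add_left (sum_union_le' _ _ _) _)
  have hup' : plethMult a b (m + 1) lam ≤
      ∑ k ∈ P.filter (fun k => (∀ x ∈ k, x ≤ b) ∧ ¬ LBt a k), N k := by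
    convert hup
  omega

end Vale.Agent.P181.SZ
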