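import Vale.Agent.P181.H583.HWDef
import Vale.Agent.P181.H280.Defs
import Vale.Agent.P181.H463.GtDef
import Vale.Agent.P181.T4.Typ
import Vale.Agent.P181.T4.Asm

set_option autoImplicit false

/-!
# P181, SZ: size types

Highest weight polynomials with prescribed column degrees. The statements of this file together
give Foulkes' inequality for all partitions when `b ≥ C a ^ (1 + ε)`.
-/

open MvPolynomial

namespace Vale.Agent.P181.SZ

open Vale.Agent.P181.T4 (HW ex low)
open Vale.Agent.P181.H280 (plethMult)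
open Vale.Agent.P181.H463 (gt)

/-- The highest weight polynomials of weight `mu` in the entries of an `m × σ` matrix, of degree
`d j` in the column `j`, invariant under all permutations of the columns which preserve `d`. -/
noncomputable def PK (m : ℕ) (σ : Type) [Fintype σ] (d : σ → ℕ) (mu : Fin m → ℕ) :
    Submodule ℂ (MvPolynomial (Fin m × σ) ℂ) where
  carrier := {f | f ∈ HW m σ mu ∧ (∀ v, coeff v f ≠ 0 → ∀ j, ∑ i, v (i, j) = d j) ∧
    ∀ e : Equiv.Perm σ, (∀ j, d (e j) = d j) →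
      rename (fun p : Fin m × σ => (p.1, e p.2)) f = f}
  zero_mem' := ⟨zero_mem _, fun v hv => absurd (coeff_zero v) hv, fun e _ => map_zero _⟩
  add_mem' := by
    rintro f g ⟨hf1, hf2, hf3⟩ ⟨hg1, hg2, hg3⟩
    refine ⟨add_mem hf1 hg1, fun v hv j => ?_, fun e he => by rw [map_add, hf3 e he, hg3 e he]⟩
    rw [coeff_add] at hv
    by_cases h : coeff v f = 0
    · rw [h, zero_add] at hv
      exact hg2 v hv j
    · exact hf2 v h j
  smul_mem' := by
    rintro c f ⟨hf1, hf2, hf3⟩
    refine ⟨Submodule.smul_mem _ c hf1, fun v hv j => ?_, fun e he => ?_⟩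
    · rw [coeff_smul, smul_eq_mul] at hv
      exact hf2 v (right_ne_zero_of_mul hv) j
    · rw [map_smul, hf3 e he]

/-- The multiplicity of `S_mu` in the module of the size type `k`:
`⊗_s Sym^(m_s) (Sym^s ℂ^m)`, where `m_s` is the multiplicity of `s` in `k`. -/
noncomputable def nn (m : ℕ) (mu : Fin m → ℕ) (k : Multiset ℕ) : ℕ :=
  Module.finrank ℂ (PK m (Fin k.toList.length) (fun j => k.toList.get j) mu)

/-- The size types of total size `w`: partitions of `w` into parts at least `2`. -/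
noncomputable def PT (w : ℕ) : Finset (Multiset ℕ) :=
  ((Finset.univ : Finset (Nat.Partition w)).image Nat.Partition.parts).filter
    fun k => ∀ x ∈ k, 2 ≤ x

/-- The rows below the first one. -/
def tl {m : ℕ} (lam : Fin (m + 1) → ℕ) : Fin m → ℕ := fun i => lam i.succ

/-- The leading size types for `a` points. -/
def LBt (a : ℕ) (k : Multiset ℕ) : Prop :=
  a < Multiset.card k ∨ ∃ x ∈ k, a + 3 ≤ x + Multiset.card k ∧
    ∀ y ∈ k.erase x, y + a + 2 ≤ x + Multiset.card k

/-- **(R6)** transport: only the multiset of the nonzero column degrees matters. -/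
def TransS : Prop := ∀ (m : ℕ) (σ : Type) [Fintype σ] (d : σ → ℕ) (mu : Fin m → ℕ),
  Module.finrank ℂ (PK m σ d mu) =
    nn m mu ((Finset.univ.val.map d).filter (0 < ·))

open scoped Classical in
/-- **(R1)** upper bound: the components of non-leading size types determine a translation
invariant symmetric polynomial in `a` points. -/
def UpperS : Prop := ∀ (a b m : ℕ) (lam : Fin (m + 1) → ℕ),
  plethMult a b (m + 1) lam ≤
    ∑ k ∈ (PT (∑ i, tl lam i)).filter (fun k => (∀ x ∈ k, x ≤ b) ∧ ¬ LBt a k), nn m (tl lam) k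

open scoped Classical in
/-- **(R2)** lower bound: `b` points, all size types with at most `b / 3` letters. -/
def LowerS : Prop := ∀ (a b m : ℕ) (lam : Fin (m + 1) → ℕ), ∑ i, lam i = a * b →
  ∑ k ∈ (PT (∑ i, tl lam i)).filter (fun k => (∀ x ∈ k, x ≤ a) ∧ 3 * Multiset.card k ≤ b),
    nn m (tl lam) k ≤ plethMult b a (m + 1) lam

/-- **(R3)** splitting a letter into letters of new sizes. -/
def SplitS (N : Multiset ℕ → ℕ) : Prop := ∀ (rho U : Multiset ℕ) (x : ℕ), 0 < x → U.Nodup →
  (∀ u ∈ U, 0 < u ∧ u ∉ rho ∧ u ≠ x) → x ∉ rho →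
  N ((x + U.sum) ::ₘ rho) ≤ N (x ::ₘ (U + rho))

open scoped Classical in
/-- **(R4)** few letters. -/
def FewS : Prop := ∀ (m w J : ℕ) (mu : Fin m → ℕ), ∑ i, mu i = w →
  ∑ k ∈ (PT w).filter (fun k => Multiset.card k ≤ J), nn m mu k ≤
    Module.finrank ℂ (HW m (Fin J) mu)

/-- The sizes of the marks: `2 x + 2 q + 2`, `q < t`, each `r` times. -/
def mks (x t r : ℕ) : Multiset ℕ := ∑ q ∈ Finset.range t, Multiset.replicate r (2 * x + 2 * q + 2)

/-- The size of the big mark. -/
def mkc (x t : ℕ) : ℕ := ∑ q ∈ Finset.range t, (2 * x + 2 * q + 2)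

/-- **(R5)** marks: `mkc x t` columns of length `r + 1`, one big letter and `r` letters of each
size `2 x + 2 q + 2`. -/
def MarkS : Prop := ∀ (m r x t : ℕ) (mu nu : Fin m → ℕ) (k : Multiset ℕ), r < m → 2 ≤ t →
  (∀ y ∈ k, y ≤ 2 * x + 1) →
  (∀ i : Fin m, nu i = mu i + if (i : ℕ) ≤ r then mkc x t else 0) →
  nn m mu k ≤ nn m nu (mkc x t ::ₘ (mks x t r + k))

/-- The source types of the flow: many letters and a letter larger than `a`. -/
def SrcF (a J S : ℕ) (k : Multiset ℕ) : Prop :=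
  J ≤ Multiset.card k ∧ (∃ x ∈ k, a < x) ∧ Multiset.card (k.filter (· < S)) ≤ a

/-- The good types of the flow. -/
def GoodF (a J S Y : ℕ) (k : Multiset ℕ) : Prop :=
  J ≤ Multiset.card k ∧ (∀ x ∈ k, x ≤ a) ∧ (∃ x ∈ k, a ≤ x + Y ∧ ∀ y ∈ k.erase x, y < 2 * Y) ∧
    Multiset.card (k.filter (· < S)) ≤ a

open scoped Classical in
/-- **(C1)** the flow: pure counting from `SplitS`. Here `Y = 2 K S`. -/
def FlowS : Prop := ∀ (N : Multiset ℕ → ℕ), SplitS N → ∀ (a J S K X w : ℕ), 1 ≤ K → 2 ≤ S →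
  16 * K ≤ X → w * X ^ 2 ≤ S ^ 2 → 4 * w ≤ X ^ K → 6 * K * S ≤ a →
  2 * ∑ k ∈ (PT w).filter (SrcF a J S), N k ≤
    ∑ k ∈ (PT w).filter (GoodF a J S (2 * K * S)), N k

end Vale.Agent.P181.SZ
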