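import Vale.Agent.P181.SZ.Const
import Vale.Agent.P181.SZ.Asm
import Vale.Agent.P181.SZT0.Tr
import Vale.Agent.P181.SZR1b.Main
import Vale.Agent.P181.SZR2.Lower
import Vale.Agent.P181.SZR3.Split
import Vale.Agent.P181.SZR4.Few
import Vale.Agent.P181.SZR5.Mark
import Vale.Agent.P181.SZC1.Flow
import Vale.Agent.P181.SZN3.All
import Vale.Agent.P181.SZN4.Num

set_option autoImplicit false

/-!
# P181, SZ: everything together
-/

namespace Vale.Agent.P181.SZ

/-- The finite form, unconditional. -/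
theorem finA : FinA :=
  fin_asm R1b.upperS SZR2.lowerS (SZR3.splitS SZT0.transS) SZR4.few_s (SZR5.markS SZT0.transS)
    SZC1.flowS (SZN4.num_s SZN3.lbcF SZN3.lbrF)

end Vale.Agent.P181.SZ
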