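import Vale.Agent.P181.SZ.Defs

set_option autoImplicit false

/-!
# P181, SZ: the literals of the numeric part

Rows are 0-indexed; `ex lam (j - 1) - ex lam j` is the number of columns of length exactly `j`.
-/

namespace Vale.Agent.P181.SZ

open Vale.Agent.P181.T4 (HW ex low)
open Vale.Agent.P181.H280 (plethMult)
open Vale.Agent.P181.H463 (gt)

/-- **(N1)** `H502.dec` + `H403.dec_use` + `T9.decB`, for `n` rows (`n` not related to `a`). -/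
def DecBn : Prop := ∀ (a b n R X k0 : ℕ) (e : ℕ → ℕ) (lam : Fin n → ℕ), Antitone lam →
  ∑ i, lam i = a * b → 1 ≤ R → R < n → R < a → 2 * R ≤ k0 → k0 ≤ a → R ≤ X →
  (∀ j, 1 ≤ j → j ≤ R → e j + ex lam j ≤ ex lam (j - 1)) →
  2 * (R * ex lam R + 2 * a * R ^ 2 + ∑ i, low R lam i + ∑ j ∈ Finset.Icc 1 R, j * e j +
    (k0 + 2 * R)) ≤ k0 * X → (R + 1) * X ≤ 2 * b →
  (k0 + 2 * R) * R ≤ ∑ j ∈ Finset.Icc 1 R, j * e j →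
  ∃ (B k : ℕ) (mu : Fin n → ℕ), Antitone mu ∧ ∑ i, mu i = k * B ∧ k0 ≤ k ∧ k ≤ k0 + 2 * R ∧
    k ≤ a ∧ (∀ s, R ≤ s → ex mu s = ex lam s) ∧
    (∀ j, 1 ≤ j → j ≤ R → ex mu j + e j ≤ ex mu (j - 1) ∧
      ex mu (j - 1) ≤ ex mu j + e j + 2 * a) ∧
    plethMult B k n mu ≤ plethMult b a n lam

/-- **(N2)** the lower bound inside `H699.CC.caseC_nat` (two levels `l < R1`), with `n` rows,
letters of size `≤ a` and tableaux with `J` letters. -/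
def LBC : Prop := ∀ (a b n J R0 R1 l m k0 N T : ℕ) (lam : Fin n → ℕ), Antitone lam →
  ∑ i, lam i = a * b → 2 ≤ l → l < R1 → m ≤ R1 → R1 ≤ R0 → R0 < n → n ≤ J → J ≤ N →
  (∀ j, 2 ≤ j → j ≤ R0 → ex lam (j - 1) - ex lam j ≤ ex lam (l - 1) - ex lam l) →
  (∀ j, R1 ≤ j → j ≤ R0 → ex lam (j - 1) - ex lam j ≤ ex lam (R1 - 1) - ex lam R1) →
  100 * R0 ^ 2 * N ≤ ex lam (R1 - 1) - ex lam R1 →
  20 * N * (k0 + 2 * R0) ≤ ex lam (l - 1) - ex lam l →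
  2000 * R0 ^ 3 ≤ k0 → 2 * k0 ≤ a → a * (R0 + 1) ≤ N →
  8 * (R0 * ex lam R0 + 2 * a * R0 ^ 2 + ∑ i, low R0 lam i) ≤ N * k0 →
  2 * ex lam R0 ≤ ex lam (m - 1) → 50 * R0 * (R0 + 1) * N ≤ 2 * b →
  729 * N < ∏ i ∈ Finset.Ico 1 m,
    (min (ex lam i / (32 * R0 ^ 2 * N)) (k0 / (256 * R0 ^ 2)) + 1) →
  (T : ℝ) * (((a * b : ℕ) : ℝ) + 1) ^ (J * R0) * ((a : ℝ) + 1) ^ J ≤ Real.exp N →
  T * gt (n - R0) J (low R0 lam) ≤ plethMult b a n lam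

/-- **(N3)** the lower bound inside `H503.caseR_nat` (one level `R1 ≥ 3`), with `n` rows,
letters of size `≤ a` and tableaux with `J` letters. -/
def LBR : Prop := ∀ (a b n J R0 R1 m k0 N T : ℕ) (lam : Fin n → ℕ), Antitone lam →
  ∑ i, lam i = a * b → 3 ≤ m → m ≤ R1 → R1 ≤ R0 → R0 < n → n ≤ J → J ≤ N →
  20 * N * (k0 + 2 * R0) ≤ ex lam (R1 - 1) - ex lam R1 →
  2000 * R0 ^ 3 ≤ k0 → 2 * k0 ≤ a → a * (R0 + 1) ≤ N →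
  8 * (R0 * ex lam R0 + 2 * a * R0 ^ 2 + ∑ i, low R0 lam i) ≤ N * k0 →
  50 * R0 * (R0 + 1) * N ≤ 2 * b →
  729 * N < ∏ i ∈ Finset.Ico 1 m,
    (min (ex lam i / (32 * R0 ^ 2 * N)) (k0 / (256 * R0 ^ 2)) + 1) →
  (T : ℝ) * (((a * b : ℕ) : ℝ) + 1) ^ (J * R0) * ((a : ℝ) + 1) ^ J ≤ Real.exp N →
  T * gt (n - R0) J (low R0 lam) ≤ plethMult b a n lam

/-- **(N4)** the choice of the numbers (from `LBC`, `LBR`): a mark and a shape `nu` with much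
larger multiplicity than `w ^ (R J)` times the number of tableaux of the tail.
`w` = number of cells below row one, `Z ^ 2 ≤ w ≤ 2 Z ^ 2`. -/
def NumS : Prop := ∀ (n J R X Z w a : ℕ) (lam : Fin n → ℕ), Antitone lam → 3 ≤ R → R < n →
  n ≤ J → w = ∑ i : Fin n, (if 1 ≤ (i : ℕ) then lam i else 0) → Z ^ 2 ≤ w → w ≤ 2 * Z ^ 2 →
  J ≤ Z * X ^ 2 → 10 ^ 6 * R ^ 4 ≤ X → X ^ 20 ≤ Z → Z * X ^ 14 ≤ ex lam 2 →
  X * a ≤ ex lam 2 → Z ≤ a → 8 * ex lam R ≤ ex lam 2 →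
  X ^ 6 * (R * ex lam R + ∑ i, low R lam i) ≤ w →
  100 * (R : ℝ) * Real.log (w + 1) ≤ X →
  ∃ (r x t a0 b0 : ℕ) (nu : Fin n → ℕ), r + 2 ≤ R ∧ 2 ≤ t ∧ a0 ≤ 2 * x + 1 ∧ 1 ≤ a0 ∧
    mkc x t ≤ a ∧
    (∀ i : Fin n, 1 ≤ (i : ℕ) → nu i + (if (i : ℕ) ≤ r + 1 then mkc x t else 0) = lam i) ∧
    (∀ y, y ≤ 2 * x + 2 * t → ∀ s, w ≤ (r + 1) * mkc x t + a0 * s →
      y + a + 2 ≤ mkc x t + s) ∧
    b0 + 1 + r * t ≤ Z * X ^ 8 ∧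
    2 * ((w + 1) ^ (R * J) * gt (n - R) J (low R lam)) ≤ plethMult b0 a0 n nu

/-- The main theorem. -/
def MainS : Prop := ∀ ε : ℝ, 0 < ε → ∀ᶠ a : ℕ in Filter.atTop, ∀ b : ℕ, (a : ℝ) ^ (1 + ε) ≤ b →
  ∀ (n : ℕ) (lam : Fin n → ℕ), plethMult a b n lam ≤ plethMult b a n lam

end Vale.Agent.P181.SZ
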