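import Vale.Agent.P181.SZ.Spec2
import Vale.Agent.P181.H412.Nat10
import Vale.Agent.P181.H530.Inj

set_option autoImplicit false

/-!
# P181, SZ: from large `a` to all `a`
-/

universe u

namespace Vale.Agent.P181.SZ

open Vale.Agent.P181.H280 (plethMult)

/-- From `MainS` (large `a`) to one constant for all `a`, and the injection for all `V`. -/
theorem const_of_main (h : MainS) (ε : ℝ) (hε : 0 < ε) :
    ∃ C : ℝ, ∀ a b : ℕ, C * (a : ℝ) ^ (1 + ε) ≤ b →
      H530.FoulkesInjection.{u} a b ∧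
        ∀ (n : ℕ) (lam : Fin n → ℕ), plethMult a b n lam ≤ plethMult b a n lam := by
  obtain ⟨a₀, h0⟩ := Filter.eventually_atTop.1 (h ε hε)
  refine ⟨(a₀ : ℝ) ^ 2 + 1, fun a b hb => ?_⟩
  have h4 : ∀ (n : ℕ) (lam : Fin n → ℕ), plethMult a b n lam ≤ plethMult b a n lam := by
    rcases Nat.lt_or_ge a a₀ with ha | ha
    · intro n lam
      apply H463.big_stmt
      rcases Nat.eq_zero_or_pos a with ha0 | ha0
      · subst ha0
        simp
      · have h1 : (1 : ℝ) ≤ (a : ℝ) ^ (1 + ε) :=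
          Real.one_le_rpow (by exact_mod_cast ha0) (by linarith)
        have h2 : (a₀ : ℝ) ^ 2 ≤ b := by nlinarith [sq_nonneg (a₀ : ℝ)]
        have h3 : a₀ ^ 2 ≤ b := by exact_mod_cast h2
        exact (Nat.pow_le_pow_left (by omega) 2).trans h3
    · have h1 : (0 : ℝ) ≤ (a : ℝ) ^ (1 + ε) := by positivity
      exact h0 a ha b (by nlinarith [sq_nonneg (a₀ : ℝ)])
  exact ⟨H530.foulkesInjection_of_mult h4, h4⟩

end Vale.Agent.P181.SZ
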