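import Vale.Agent.P181.SZ.Spec2

set_option autoImplicit false

/-!
# P181, SZ: the literal between the finite assembly and the real exponents
-/

namespace Vale.Agent.P181.SZ

open Vale.Agent.P181.T4 (ex low)
open Vale.Agent.P181.H280 (plethMult)

/-- **(A)** the finite assembly. -/
def FinA : Prop := ∀ (a b n R X Z K w : ℕ) (lam : Fin n → ℕ), Antitone lam →
  ∑ i, lam i = a * b → (∀ i, 0 < lam i) → 3 ≤ R → R < n →
  w = ∑ i : Fin n, (if 1 ≤ (i : ℕ) then lam i else 0) → Z ^ 2 ≤ w → w < (Z + 1) ^ 2 →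
  1 ≤ K → 16 * K + 16 ≤ X → 10 ^ 6 * R ^ 4 ≤ X → X ^ 20 ≤ Z → Z * X ^ 14 ≤ ex lam 2 →
  X * a ≤ ex lam 2 → 8 * ex lam R ≤ ex lam 2 →
  X ^ 6 * (R * ex lam R + ∑ i, low R lam i) ≤ w → 100 * (R : ℝ) * Real.log (w + 1) ≤ X →
  4 * w ≤ X ^ K → 100 * K * ((Z + 1) * X) ≤ a → 100 * a ≤ b → 3 * (Z * X ^ 8) ≤ b →
  plethMult a b n lam ≤ plethMult b a n lam

end Vale.Agent.P181.SZ
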