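import Vale.Agent.P181.SZ.Final
import Vale.Agent.P181.SZA2.Done

set_option autoImplicit false

/-!
# P181, SZ: `b ≥ a ^ (1 + ε)`, all partitions
-/

namespace Vale.Agent.P181.SZ

theorem mainS : MainS := SZA2.main_of_fin finA

end Vale.Agent.P181.SZ
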